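import Vale.Agent.P101.ZStab.Limit.Chain
import Vale.Agent.P101.Quot

/-!
# P101: the inductive limit of a chain

`Amb` is the bounded product of the stages modulo the sequences tending to zero; the stages embed
isometrically by their eventual images, and `Lim` is the closure of their union.  `ambTrace` is the
limit along a free ultrafilter of the normalised traces at the point `0`.
-/

open scoped Kronecker Matrix.Norms.L2Operator ENNReal
open Filter Topology

namespace Vale.P101.ZS.Lim

noncomputable section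

instance (p : ℕ) [NeZero p] : Nontrivial (Dp p) :=
  ⟨⟨1, 0, fun h => by
    have := congrArg (fun f : Dp p => f.1 0 (0, 0) (0, 0)) h
    simp at this⟩⟩

variable (c : Chain)

theorem Chain.two_le (n : ℕ) : 2 ≤ c.P n := two_le_of_pow (c.pow n)

instance (n : ℕ) : NeZero (c.P n) := ⟨by have := c.two_le n; omega⟩

/-- The stages. -/
def St (n : ℕ) : Type := Dp (c.P n)

instance (n : ℕ) : CStarAlgebra (St c n) := inferInstanceAs (CStarAlgebra (Dp (c.P n)))

instance (n : ℕ) : Nontrivial (St c n) := inferInstanceAs (Nontrivial (Dp (c.P n)))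

/-- The value of an element of a stage at a point, as a homomorphism. -/
def pt (n : ℕ) (s : II) : St c n →⋆ₐ[ℂ] Mat (c.P n) (c.P n + 1) :=
  (ev s : Dp (c.P n) →⋆ₐ[ℂ] _)

theorem norm_pt_le {n : ℕ} (f : St c n) (s : II) : ‖pt c n s f‖ ≤ ‖f‖ :=
  norm_ev_le (f : Dp (c.P n)) s

/-- The connecting maps between stages. -/
def trS (i n : ℕ) (h : i ≤ n) : St c i →⋆ₐ[ℂ] St c n :=
  (tr c.P c.φ i n h : Dp (c.P i) →⋆ₐ[ℂ] Dp (c.P n))

theorem trS_injective {i n : ℕ} (h : i ≤ n) : Function.Injective (trS c i n h) :=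
  tr_injective c.inj h

theorem trS_trans {i n m : ℕ} (h : i ≤ n) (h' : n ≤ m) (f : St c i) :
    trS c n m h' (trS c i n h f) = trS c i m (h.trans h') f :=
  tr_trans h h' f

/-- The bounded product of the stages. -/
abbrev Prodc : Type := lp (St c) ∞

instance : CStarAlgebra (Prodc c) :=
  { (inferInstance : NormedRing (Prodc c)), (inferInstance : StarRing (Prodc c)),
    (inferInstance : NormedAlgebra ℂ (Prodc c)), (inferInstance : StarModule ℂ (Prodc c)),
    (inferInstance : CompleteSpace (Prodc c)), (inferInstance : CStarRing (Prodc c)) with }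

/-- The sequences tending to zero. -/
def Null : Ideal (Prodc c) where
  carrier := {a | Tendsto (fun n => ‖a n‖) atTop (𝓝 0)}
  add_mem' {a b} ha hb :=
    squeeze_zero (fun n => norm_nonneg _) (fun n => norm_add_le (a n) (b n))
      (by simpa using Tendsto.add ha hb)
  zero_mem' := by simp
  smul_mem' x a ha :=
    squeeze_zero (fun n => norm_nonneg _)
      (fun n => (norm_mul_le (x n) (a n)).trans
        (mul_le_mul_of_nonneg_right (lp.norm_apply_le_norm (by norm_num) x n) (norm_nonneg _)))
      (by simpa using Tendsto.const_mul ‖x‖ ha)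

theorem mem_null {a : Prodc c} : a ∈ Null c ↔ Tendsto (fun n => ‖a n‖) atTop (𝓝 0) := Iff.rfl

instance : (Null c).IsTwoSided :=
  ⟨fun {a} b ha => squeeze_zero (fun n => norm_nonneg _)
    (fun n => (norm_mul_le (a n) (b n)).trans
      (mul_le_mul_of_nonneg_left (lp.norm_apply_le_norm (by norm_num) b n) (norm_nonneg _)))
    (by simpa using Tendsto.mul_const ‖b‖ ha)⟩

instance : IsClosed (Null c : Set (Prodc c)) := by
  refine isClosed_of_closure_subset fun a ha => ?_
  rw [Metric.mem_closure_iff] at ha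
  rw [SetLike.mem_coe, mem_null, Metric.tendsto_nhds]
  intro ε hε
  obtain ⟨b, hb, hab⟩ := ha (ε / 2) (half_pos hε)
  filter_upwards [Metric.tendsto_nhds.1 ((mem_null c).1 hb) (ε / 2) (half_pos hε)] with n hn
  have h1 : ‖a n - b n‖ ≤ ‖a - b‖ := lp.norm_apply_le_norm (by norm_num) (a - b) n
  rw [dist_eq_norm] at hab
  rw [Real.dist_eq, sub_zero, abs_of_nonneg (norm_nonneg _)] at hn ⊢
  linarith [norm_le_insert' (a n) (b n)]

/-- The product modulo the null sequences. -/
abbrev Amb : Type := Prodc c ⧸ Null c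

/-- The class of a sequence. -/
abbrev cl : Prodc c →ₐ[ℂ] Amb c := Ideal.Quotient.mkₐ ℂ (Null c)

theorem cl_surjective : Function.Surjective (cl c) := Ideal.Quotient.mk_surjective

theorem cl_eq {a b : Prodc c} : cl c a = cl c b ↔ a - b ∈ Null c := Ideal.Quotient.eq

theorem cl_eq_of_eventually {a b : Prodc c} (m : ℕ) (h : ∀ n, m ≤ n → a n = b n) :
    cl c a = cl c b := by
  rw [cl_eq, mem_null]
  refine tendsto_const_nhds.congr' ?_
  filter_upwards [eventually_ge_atTop m] with n hn
  simp [h n hn]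

theorem star_mem_null {a : Prodc c} (ha : a ∈ Null c) : star a ∈ Null c := by
  rw [mem_null] at ha ⊢
  simpa using ha

instance : Star (Amb c) :=
  ⟨Quotient.map' star fun a b h => by
    rw [Submodule.quotientRel_def] at h ⊢
    simpa using star_mem_null c h⟩

theorem star_cl (a : Prodc c) : star (cl c a) = cl c (star a) := rfl

instance : StarRing (Amb c) where
  star_involutive x := by
    obtain ⟨a, rfl⟩ := cl_surjective c x
    rw [star_cl, star_cl, star_star]
  star_mul x y := by
    obtain ⟨a, rfl⟩ := cl_surjective c x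
    obtain ⟨b, rfl⟩ := cl_surjective c y
    rw [← map_mul, star_cl, star_cl, star_cl, ← map_mul, star_mul]
  star_add x y := by
    obtain ⟨a, rfl⟩ := cl_surjective c x
    obtain ⟨b, rfl⟩ := cl_surjective c y
    rw [← map_add, star_cl, star_cl, star_cl, ← map_add, star_add]

instance : StarModule ℂ (Amb c) where
  star_smul t x := by
    obtain ⟨a, rfl⟩ := cl_surjective c x
    rw [← map_smul, star_cl, star_cl, ← map_smul, star_smul]

theorem norm_cl_le_of_eventually (a : Prodc c) (m : ℕ) {r : ℝ} (hr : 0 ≤ r)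
    (h : ∀ n, m ≤ n → ‖a n‖ ≤ r) : ‖cl c a‖ ≤ r := by
  classical
  have hb : ∀ n, ‖if m ≤ n then a n else 0‖ ≤ r := fun n => by
    split_ifs with hn
    · exact h n hn
    · simpa using hr
  let b : Prodc c := ⟨fun n => if m ≤ n then a n else 0, memℓp_infty ⟨r, by
    rintro _ ⟨n, rfl⟩; exact hb n⟩⟩
  have e : cl c a = cl c b := cl_eq_of_eventually c m fun n hn => by simp [b, hn]
  rw [e]
  exact (quot_norm_mk_le (Null c) b).trans (lp.norm_le_of_forall_le hr hb)

instance : CStarRing (Amb c) where
  norm_mul_self_le x := by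
    obtain ⟨a, rfl⟩ := cl_surjective c x
    refine le_of_forall_pos_le_add fun ε hε => ?_
    obtain ⟨b, hb, hbn⟩ := quot_exists_norm_lt (Null c) (star (cl c a) * cl c a) (half_pos hε)
    have hsub : star a * a - b ∈ Null c := by
      rw [← cl_eq, map_mul, ← star_cl]
      exact hb.symm
    obtain ⟨m, hm⟩ := eventually_atTop.1
      (((mem_null c).1 hsub).eventually (eventually_le_nhds (half_pos hε)))
    set r := ‖star (cl c a) * cl c a‖ + ε with hr
    have hr0 : 0 ≤ r := by positivity
    have key : ‖cl c a‖ ≤ √r := norm_cl_le_of_eventually c a m (Real.sqrt_nonneg _) fun n hn => by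
      refine Real.le_sqrt_of_sq_le ?_
      have h1 : ‖star (a n) * a n - b n‖ ≤ ε / 2 := hm n hn
      have h2 : ‖b n‖ ≤ ‖b‖ := lp.norm_apply_le_norm (by norm_num) b n
      rw [sq, ← CStarRing.norm_star_mul_self]
      linarith [norm_le_insert' (star (a n) * a n) (b n)]
    calc ‖cl c a‖ * ‖cl c a‖ ≤ √r * √r :=
          mul_le_mul key key (norm_nonneg _) (Real.sqrt_nonneg _)
      _ = r := Real.mul_self_sqrt hr0

instance : CStarAlgebra (Amb c) where

/-! ### The stages inside -/

/-- The eventual images of an element of a stage. -/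
def ext (i : ℕ) (f : St c i) : Prodc c :=
  ⟨fun n => if h : i ≤ n then trS c i n h f else 0, memℓp_infty ⟨‖f‖, by
    rintro _ ⟨n, rfl⟩
    simp only
    split_ifs
    · exact NonUnitalStarAlgHom.norm_apply_le _ f
    · simp⟩⟩

theorem ext_apply {i n : ℕ} (h : i ≤ n) (f : St c i) : ext c i f n = trS c i n h f := by
  simp [ext, h]

/-- The embedding of a stage. -/
def embA (i : ℕ) : St c i →⋆ₐ[ℂ] Amb c where
  toFun f := cl c (ext c i f)
  map_one' := by
    rw [← map_one (cl c)]
    exact cl_eq_of_eventually c i fun n hn => by rw [ext_apply c hn, map_one]; rfl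
  map_mul' f g := by
    rw [← map_mul]
    exact cl_eq_of_eventually c i fun n hn => by
      simp only [ext_apply c hn, map_mul, lp.infty_coeFn_mul, Pi.mul_apply]
  map_zero' := by
    rw [← map_zero (cl c)]
    exact cl_eq_of_eventually c i fun n hn => by rw [ext_apply c hn, map_zero]; rfl
  map_add' f g := by
    rw [← map_add]
    exact cl_eq_of_eventually c i fun n hn => by
      simp only [ext_apply c hn, map_add, lp.coeFn_add, Pi.add_apply]
  commutes' t := by
    rw [← (cl c).commutes t]
    exact cl_eq_of_eventually c i fun n hn => by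
      rw [ext_apply c hn, AlgHomClass.commutes]
      rfl
  map_star' f := by
    rw [star_cl]
    exact cl_eq_of_eventually c i fun n hn => by
      simp only [ext_apply c hn, map_star, lp.star_apply]

theorem embA_tr {i n : ℕ} (h : i ≤ n) (f : St c i) :
    embA c n (trS c i n h f) = embA c i f :=
  cl_eq_of_eventually c n fun m hm => by
    rw [ext_apply c hm, ext_apply c (h.trans hm), trS_trans]

theorem norm_embA (i : ℕ) (f : St c i) : ‖embA c i f‖ = ‖f‖ := by
  refine le_antisymm (NonUnitalStarAlgHom.norm_apply_le _ f) (le_of_forall_pos_le_add fun ε hε => ?_)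
  obtain ⟨b, hb, hbn⟩ := quot_exists_norm_lt (Null c) (embA c i f) (half_pos hε)
  have hsub : ext c i f - b ∈ Null c := (cl_eq c).1 hb.symm
  obtain ⟨m, hm⟩ := eventually_atTop.1
    (((mem_null c).1 hsub).eventually (eventually_le_nhds (half_pos hε)))
  have h1 := hm (max i m) (le_max_right _ _)
  have hin : i ≤ max i m := le_max_left _ _
  have h2 : ‖ext c i f (max i m)‖ = ‖f‖ := by
    rw [ext_apply c hin]
    exact NonUnitalStarAlgHom.norm_map _ (trS_injective c hin) f
  have h3 : ‖b (max i m)‖ ≤ ‖b‖ := lp.norm_apply_le_norm (by norm_num) b _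
  have h4 : ‖(ext c i f - b) (max i m)‖ = ‖ext c i f (max i m) - b (max i m)‖ := rfl
  linarith [norm_le_insert' (ext c i f (max i m)) (b (max i m))]

theorem embA_injective (i : ℕ) : Function.Injective (embA c i) := fun f g h => by
  rw [← sub_eq_zero, ← norm_eq_zero, ← norm_embA c, map_sub, h, sub_self, norm_zero]

theorem embA_range_mono {i n : ℕ} (h : i ≤ n) : (embA c i).range ≤ (embA c n).range := by
  rintro _ ⟨f, rfl⟩
  exact ⟨trS c i n h f, embA_tr c h f⟩

/-- The union of the stages, closed. -/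
def LimSub : StarSubalgebra ℂ (Amb c) := (⨆ i, (embA c i).range).topologicalClosure

theorem coe_limSub : (LimSub c : Set (Amb c)) = closure (⋃ i, Set.range (embA c i)) := by
  have hd : Directed (· ≤ ·) fun i => (embA c i).range :=
    Monotone.directed_le fun i n h => embA_range_mono c h
  rw [LimSub, StarSubalgebra.topologicalClosure_coe, StarSubalgebra.coe_iSup_of_directed hd]
  rfl

/-- The inductive limit. -/
abbrev LimAlg : Type := LimSub c

instance : IsClosed (LimSub c : Set (Amb c)) := StarSubalgebra.isClosed_topologicalClosure _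

instance : CStarAlgebra (LimAlg c) := StarSubalgebra.cstarAlgebra _

/-- The stages in the limit. -/
def emb (i : ℕ) : St c i →⋆ₐ[ℂ] LimAlg c :=
  (embA c i).codRestrict (LimSub c) fun f => by
    rw [← SetLike.mem_coe, coe_limSub]
    exact subset_closure (Set.mem_iUnion.2 ⟨i, f, rfl⟩)

theorem emb_injective (i : ℕ) : Function.Injective (emb c i) := fun _ _ h =>
  embA_injective c i (congrArg Subtype.val h)

theorem emb_tr {i n : ℕ} (h : i ≤ n) (f : St c i) :
    emb c n (trS c i n h f) = emb c i f := Subtype.ext (embA_tr c h f)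

theorem norm_emb (i : ℕ) (f : St c i) : ‖emb c i f‖ = ‖f‖ := norm_embA c i f

theorem exists_emb_near (x : LimAlg c) {ε : ℝ} (hε : 0 < ε) :
    ∃ i f, ‖x - emb c i f‖ < ε := by
  have hx : (x : Amb c) ∈ closure (⋃ i, Set.range (embA c i)) := by
    rw [← coe_limSub]
    exact x.2
  obtain ⟨_, hy, hd⟩ := Metric.mem_closure_iff.1 hx ε hε
  obtain ⟨i, f, rfl⟩ := Set.mem_iUnion.1 hy
  rw [dist_eq_norm] at hd
  exact ⟨i, f, hd⟩

/-! ### The trace -/

/-- The normalised trace at `0` of the `n`-th entry. -/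
def tr0 (a : Prodc c) (n : ℕ) : ℂ := ntr (pt c n 0 (a n))

theorem norm_tr0_le (a : Prodc c) (n : ℕ) : ‖tr0 c a n‖ ≤ ‖a‖ :=
  (norm_ntr_le _).trans ((norm_pt_le c (a n) 0).trans (lp.norm_apply_le_norm (by norm_num) a n))

theorem tendsto_tr0 (a : Prodc c) :
    Tendsto (tr0 c a) (hyperfilter ℕ) (𝓝 (limUnder (hyperfilter ℕ : Filter ℕ) (tr0 c a))) := by
  obtain ⟨L, -, hL⟩ := (isCompact_closedBall (0 : ℂ) ‖a‖).ultrafilter_le_nhds
    ((hyperfilter ℕ).map (tr0 c a)) (by
      rw [Ultrafilter.coe_map, Filter.le_principal_iff, Filter.mem_map]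
      exact Filter.univ_mem' fun n => by simpa using norm_tr0_le c a n)
  rw [Ultrafilter.coe_map] at hL
  exact tendsto_nhds_limUnder ⟨L, hL⟩

/-- The limit of the traces on the product. -/
def prodTrace : Prodc c →ₗ[ℂ] ℂ where
  toFun a := limUnder (hyperfilter ℕ : Filter ℕ) (tr0 c a)
  map_add' a b := by
    refine ((tendsto_tr0 c a).add (tendsto_tr0 c b)).limUnder_eq.symm.trans ?_ |>.symm
    congr 1
    funext n
    simp [tr0, ntr, Matrix.trace_add, add_div]
  map_smul' t a := by
    refine ((tendsto_tr0 c a).const_smul t).limUnder_eq.symm.trans ?_ |>.symm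
    congr 1
    funext n
    simp [tr0, ntr, Matrix.trace_smul, mul_div_assoc]

theorem prodTrace_null {a : Prodc c} (ha : a ∈ Null c) : prodTrace c a = 0 := by
  have h1 : Tendsto (fun n => ‖tr0 c a n‖) atTop (𝓝 0) :=
    squeeze_zero (fun n => norm_nonneg _)
      (fun n => (norm_ntr_le _).trans (norm_pt_le c (a n) 0)) ((mem_null c).1 ha)
  exact tendsto_nhds_unique (tendsto_tr0 c a)
    ((tendsto_zero_iff_norm_tendsto_zero.2 h1).mono_left Nat.hyperfilter_le_atTop)

/-- The limit of the traces. -/
def ambTrace : Amb c →ₗ[ℂ] ℂ :=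
  ((Null c).restrictScalars ℂ).liftQ (prodTrace c) fun _ ha => prodTrace_null c ha

theorem ambTrace_cl (a : Prodc c) : ambTrace c (cl c a) = prodTrace c a := rfl

theorem norm_ambTrace_le (x : Amb c) : ‖ambTrace c x‖ ≤ ‖x‖ := by
  refine le_of_forall_pos_le_add fun ε hε => ?_
  obtain ⟨a, rfl, ha⟩ := quot_exists_norm_lt (Null c) x hε
  refine le_trans ?_ ha.le
  exact le_of_tendsto (tendsto_tr0 c a).norm (Eventually.of_forall (norm_tr0_le c a))

theorem ambTrace_one : ambTrace c 1 = 1 := by
  rw [← map_one (cl c), ambTrace_cl]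
  refine tendsto_nhds_unique (tendsto_tr0 c 1) (tendsto_const_nhds.congr fun n => ?_)
  have : ((c.P n * (c.P n + 1) : ℕ) : ℂ) ≠ 0 := by
    exact_mod_cast (Nat.mul_pos (NeZero.pos (c.P n)) (Nat.succ_pos _)).ne'
  change (1 : ℂ) = ntr (1 : Mat (c.P n) (c.P n + 1))
  rw [ntr, Matrix.trace_one, Fintype.card_prod, Fintype.card_fin, Fintype.card_fin, div_self this]

theorem ambTrace_mul_comm (x y : Amb c) : ambTrace c (x * y) = ambTrace c (y * x) := by
  obtain ⟨a, rfl⟩ := cl_surjective c x
  obtain ⟨b, rfl⟩ := cl_surjective c y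
  rw [← map_mul, ← map_mul, ambTrace_cl, ambTrace_cl]
  change limUnder _ (tr0 c (a * b)) = limUnder _ (tr0 c (b * a))
  congr 1
  funext n
  change ntr (pt c n 0 ((a * b) n)) = ntr (pt c n 0 ((b * a) n))
  simp only [lp.infty_coeFn_mul, Pi.mul_apply, map_mul, ntr]
  rw [Matrix.trace_mul_comm]

open scoped ComplexOrder in
theorem ambTrace_pos (x : Amb c) :
    0 ≤ (ambTrace c (star x * x)).re ∧ (ambTrace c (star x * x)).im = 0 := by
  obtain ⟨a, rfl⟩ := cl_surjective c x
  rw [star_cl, ← map_mul, ambTrace_cl]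
  have h : ∀ n, 0 ≤ tr0 c (star a * a) n := fun n => by
    change 0 ≤ ntr (pt c n 0 ((star a * a) n))
    rw [lp.infty_coeFn_mul, Pi.mul_apply, lp.star_apply, map_mul, map_star]
    rw [ntr, div_eq_mul_inv]
    refine mul_nonneg ?_ ?_
    · exact (Matrix.posSemidef_conjTranspose_mul_self _).trace_nonneg
    · exact inv_nonneg.2 (Nat.cast_nonneg _)
  have h1 : 0 ≤ prodTrace c (star a * a) :=
    ge_of_tendsto (tendsto_tr0 c _) (Eventually.of_forall h)
  rw [Complex.nonneg_iff] at h1
  exact ⟨h1.1, h1.2.symm⟩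

end

end Vale.P101.ZS.Lim
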