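import Vale.Agent.P101.ZStab.Limit.DDBasic

/-!
# P101: the chain of connecting maps

From `StepStmt`, a sequence of injective connecting maps between prime dimension drop algebras with
sizes powers of two such that every finite set of every stage is, somewhere later, sent to almost
constant trace, almost maximal norm in every fibre and almost flipped tensor copies.
-/

open scoped Kronecker Matrix.Norms.L2Operator
open TopologicalSpace

namespace Vale.P101.ZS.Lim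

noncomputable section

/-- The prime dimension drop algebra of size `p`. -/
abbrev Dp (p : ℕ) := DD p (p + 1)

/-- The composed connecting maps. -/
def tr (P : ℕ → ℕ) (φ : ∀ n, Dp (P n) →⋆ₐ[ℂ] Dp (P (n + 1))) (i n : ℕ) (h : i ≤ n) :
    Dp (P i) →⋆ₐ[ℂ] Dp (P n) :=
  Nat.leRecOn (C := fun k => Dp (P i) →⋆ₐ[ℂ] Dp (P k)) h (fun {k} ψ => (φ k).comp ψ)
    (StarAlgHom.id ℂ _)

variable {P : ℕ → ℕ} {φ : ∀ n, Dp (P n) →⋆ₐ[ℂ] Dp (P (n + 1))}

theorem tr_self (i : ℕ) (f : Dp (P i)) : tr P φ i i le_rfl f = f := by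
  simp [tr, Nat.leRecOn_self]

theorem tr_succ {i n : ℕ} (h : i ≤ n) (h' : i ≤ n + 1) (f : Dp (P i)) :
    tr P φ i (n + 1) h' f = φ n (tr P φ i n h f) := by
  unfold tr
  rw [Nat.leRecOn_succ h]
  rfl

theorem tr_trans {i n m : ℕ} (h : i ≤ n) (h' : n ≤ m) (f : Dp (P i)) :
    tr P φ n m h' (tr P φ i n h f) = tr P φ i m (h.trans h') f := by
  induction m, h' using Nat.le_induction with
  | base => rw [tr_self]
  | succ m hm ih => rw [tr_succ hm, tr_succ (h.trans hm), ih]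

theorem tr_injective (hφ : ∀ n, Function.Injective (φ n)) {i n : ℕ} (h : i ≤ n) :
    Function.Injective (tr P φ i n h) := by
  induction n, h using Nat.le_induction with
  | base =>
    intro f g hfg
    simpa [tr_self] using hfg
  | succ n hn ih =>
    intro f g hfg
    rw [tr_succ hn, tr_succ hn] at hfg
    exact ih (hφ n hfg)

/-- The three properties of a connecting map on one element. -/
def Nice {p p' : ℕ} (ψ : Dp p →⋆ₐ[ℂ] Dp p') (u : DD2 p' (p' + 1)) (ε : ℝ) (f : Dp p) : Prop :=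
  (∀ s s' : II, ‖ntr ((ψ f).1 s) - ntr ((ψ f).1 s')‖ ≤ ε) ∧
    (∀ s : II, ‖f‖ - ε ≤ ‖(ψ f).1 s‖) ∧
    ‖u.1 * inc1 (ψ f) * star u.1 - inc2 (ψ f)‖ ≤ ε

/-- A chain of connecting maps. -/
structure Chain where
  /-- The sizes. -/
  P : ℕ → ℕ
  pow : ∀ n, ∃ k, 1 ≤ k ∧ P n = 2 ^ k
  /-- The connecting maps. -/
  φ : ∀ n, Dp (P n) →⋆ₐ[ℂ] Dp (P (n + 1))
  inj : ∀ n, Function.Injective (φ n)
  good : ∀ (i : ℕ) (F : Finset (Dp (P i))) (ε : ℝ), 0 < ε →
    ∃ (n : ℕ) (h : i ≤ n) (u : DD2 (P (n + 1)) (P (n + 1) + 1)),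
      u.1 ∈ unitary (C(II × II, Mat2 (P (n + 1)) (P (n + 1) + 1))) ∧
      ∀ f ∈ F, Nice (φ n) u ε (tr P φ i n h f)

/-- A stage of the construction. -/
structure Stage where
  /-- The size. -/
  p : ℕ
  pow : ∃ k, 1 ≤ k ∧ p = 2 ^ k
  /-- The elements to be treated. -/
  g : ℕ → Dp p

theorem two_le_of_pow {p : ℕ} (h : ∃ k, 1 ≤ k ∧ p = 2 ^ k) : 2 ≤ p := by
  obtain ⟨k, hk, rfl⟩ := h
  exact le_trans (by norm_num) (Nat.pow_le_pow_right (by norm_num) hk)

/-- What is known about two successive stages. -/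
structure Next (m : ℕ) (S : Stage) where
  /-- The next stage. -/
  T : Stage
  /-- The connecting map. -/
  φ : Dp S.p →⋆ₐ[ℂ] Dp T.p
  inj : Function.Injective φ
  good : ∃ u : DD2 T.p (T.p + 1), u.1 ∈ unitary (C(II × II, Mat2 T.p (T.p + 1))) ∧
    ∀ k < 4 ^ m, Nice φ u (1 / (m + 1)) (S.g k)
  odd : ∀ k, T.g (2 * k + 1) = φ (S.g k)
  even : ∀ k, T.g (2 * k) = denseSeq (Dp T.p) k

theorem exists_next (hS : StepStmt) (m : ℕ) (S : Stage) : Nonempty (Next m S) := by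
  classical
  obtain ⟨p, hp, g⟩ := S
  obtain ⟨L, hL⟩ := hS p (two_le_of_pow hp) ((Finset.range (4 ^ m)).image g) (1 / (m + 1))
    (by positivity)
  obtain ⟨j, hj, rfl⟩ := hp
  set q := 2 ^ j + 1 with hq
  set t := L * q + 1 with ht
  have hdvd : q ∣ (2 ^ j) ^ (2 * t) - 1 := by
    rw [pow_mul]
    refine Dvd.dvd.trans ⟨2 ^ j - 1, ?_⟩ (Nat.sub_one_dvd_pow_sub_one ((2 ^ j) ^ 2) t)
    rw [hq, ← Nat.sq_sub_sq]
  obtain ⟨l, hl⟩ := hdvd
  have hpow : (2 ^ j) ^ (2 * t) = 1 + q * l := by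
    have : 1 ≤ (2 ^ j) ^ (2 * t) := Nat.one_le_pow _ _ (by positivity)
    omega
  have hLl : L ≤ l := by
    by_contra hc
    have h1 : 2 * t < (2 ^ j) ^ (2 * t) :=
      lt_of_lt_of_le Nat.lt_two_pow_self
        (Nat.pow_le_pow_left (le_trans (by norm_num) (Nat.pow_le_pow_right (by norm_num) hj)) _)
    have h2 : q * l ≤ q * L := Nat.mul_le_mul le_rfl (not_le.1 hc).le
    rw [hpow, ht] at h1
    nlinarith [h1, h2]
  obtain ⟨φ, hinj, htr, hnorm, u, hu, hflip⟩ := hL l hLl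
  have hP : ∃ k, 1 ≤ k ∧ nextP (2 ^ j) l = 2 ^ k := by
    refine ⟨j + j * (2 * t), by omega, ?_⟩
    rw [nextP, pow_add, pow_mul, hpow]
  refine ⟨⟨⟨nextP (2 ^ j) l, hP, fun k => if k % 2 = 0 then denseSeq _ (k / 2) else φ (g (k / 2))⟩,
    φ, hinj, ⟨u, hu, fun k hk => ?_⟩, fun k => ?_, fun k => ?_⟩⟩
  · have hmem : g k ∈ (Finset.range (4 ^ m)).image g :=
      Finset.mem_image_of_mem g (Finset.mem_range.2 hk)
    exact ⟨htr _ hmem, hnorm _ hmem, hflip _ hmem⟩
  · have h1 : (2 * k + 1) % 2 = 1 := by omega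
    have h2 : (2 * k + 1) / 2 = k := by omega
    simp [h1, h2]
  · have h1 : (2 * k) % 2 = 0 := by omega
    have h2 : (2 * k) / 2 = k := by omega
    simp [h2]

/-- The stages. -/
def stage (hS : StepStmt) : ℕ → Stage
  | 0 => ⟨2, ⟨1, le_rfl, by norm_num⟩, denseSeq (Dp 2)⟩
  | m + 1 => (Classical.choice (exists_next hS m (stage hS m))).T

/-- The step from a stage to the next one. -/
def next (hS : StepStmt) (m : ℕ) : Next m (stage hS m) :=
  Classical.choice (exists_next hS m (stage hS m))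

/-- The sizes of the stages. -/
abbrev chainP (hS : StepStmt) (m : ℕ) : ℕ := (stage hS m).p

/-- The connecting maps of the stages. -/
def chainMap (hS : StepStmt) (m : ℕ) : Dp (chainP hS m) →⋆ₐ[ℂ] Dp (chainP hS (m + 1)) :=
  (next hS m).φ

theorem tr_g (hS : StepStmt) {i n : ℕ} (h : i ≤ n) (k : ℕ) :
    ∃ k', k' + 1 = (k + 1) * 2 ^ (n - i) ∧
      tr (chainP hS) (chainMap hS) i n h ((stage hS i).g k) = (stage hS n).g k' := by
  induction n, h using Nat.le_induction with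
  | base => exact ⟨k, by simp, tr_self i _⟩
  | succ n hn ih =>
    obtain ⟨k', hk', e⟩ := ih
    refine ⟨2 * k' + 1, ?_, ?_⟩
    · rw [Nat.succ_sub hn, pow_succ, ← mul_assoc, ← hk']
      ring
    · rw [tr_succ hn, e]
      exact ((next hS n).odd k').symm

theorem exists_near (hS : StepStmt) (i : ℕ) (f : Dp (chainP hS i)) {ε : ℝ} (hε : 0 < ε) :
    ∃ k, ‖f - (stage hS i).g k‖ < ε := by
  cases i with
  | zero =>
    have h : ∀ f : Dp 2, ∃ k, ‖f - denseSeq (Dp 2) k‖ < ε := fun f => by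
      obtain ⟨k, hk⟩ := (denseRange_denseSeq (Dp 2)).exists_dist_lt f hε
      exact ⟨k, by rwa [← dist_eq_norm]⟩
    exact h f
  | succ i =>
    have h : ∀ f : Dp (next hS i).T.p, ∃ k, ‖f - (next hS i).T.g k‖ < ε := fun f => by
      obtain ⟨k, hk⟩ := (denseRange_denseSeq (Dp (next hS i).T.p)).exists_dist_lt f hε
      exact ⟨2 * k, by rwa [← dist_eq_norm, (next hS i).even k]⟩
    exact h f

theorem norm_hom_le {p p' : ℕ} (ψ : Dp p →⋆ₐ[ℂ] Dp p') (f : Dp p) : ‖ψ f‖ ≤ ‖f‖ :=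
  NonUnitalStarAlgHom.norm_apply_le ψ f

theorem norm_inc1_le {p q : ℕ} (f : DD p q) : ‖inc1 f‖ ≤ ‖f‖ := by
  refine (ContinuousMap.norm_le _ (norm_nonneg f)).2 fun x => ?_
  refine le_trans ?_ (norm_ev_le f x.1)
  let J : Mat p q →⋆ₐ[ℂ] Mat2 p q :=
    { toFun := fun M => M ⊗ₖ (1 : Mat p q)
      map_one' := by simp
      map_mul' := fun A B => by simp [← Matrix.mul_kronecker_mul]
      map_zero' := by simp
      map_add' := fun A B => by simp [Matrix.add_kronecker]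
      commutes' := fun c => by simp [Algebra.algebraMap_eq_smul_one, Matrix.smul_kronecker]
      map_star' := fun A => by
        simp [Matrix.star_eq_conjTranspose, Matrix.conjTranspose_kronecker] }
  exact NonUnitalStarAlgHom.norm_apply_le J (f.1 x.1)

theorem norm_inc2_le {p q : ℕ} (f : DD p q) : ‖inc2 f‖ ≤ ‖f‖ := by
  refine (ContinuousMap.norm_le _ (norm_nonneg f)).2 fun x => ?_
  refine le_trans ?_ (norm_ev_le f x.2)
  let J : Mat p q →⋆ₐ[ℂ] Mat2 p q :=
    { toFun := fun M => (1 : Mat p q) ⊗ₖ M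
      map_one' := by simp
      map_mul' := fun A B => by simp [← Matrix.mul_kronecker_mul]
      map_zero' := by simp
      map_add' := fun A B => by simp [Matrix.kronecker_add]
      commutes' := fun c => by simp [Algebra.algebraMap_eq_smul_one, Matrix.kronecker_smul]
      map_star' := fun A => by
        simp [Matrix.star_eq_conjTranspose, Matrix.conjTranspose_kronecker] }
  exact NonUnitalStarAlgHom.norm_apply_le J (f.1 x.2)

theorem inc1_sub {p q : ℕ} (f g : DD p q) : inc1 (f - g) = inc1 f - inc1 g := by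
  ext x : 1
  exact map_sub (Matrix.kroneckerBilinear (R := ℂ) |>.flip (1 : Mat p q)) (f.1 x.1) (g.1 x.1)

theorem inc2_sub {p q : ℕ} (f g : DD p q) : inc2 (f - g) = inc2 f - inc2 g := by
  ext x : 1
  exact map_sub (Matrix.kroneckerBilinear (R := ℂ) (1 : Mat p q)) (f.1 x.2) (g.1 x.2)

theorem norm_ntr_sub_le {p q : ℕ} (f g : DD p q) (s : II) :
    ‖ntr (f.1 s) - ntr (g.1 s)‖ ≤ ‖f - g‖ := by
  have h : ntr (f.1 s) - ntr (g.1 s) = ntr ((f - g).1 s) := by
    change _ = ntr (f.1 s - g.1 s)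
    simp [ntr, Matrix.trace_sub, sub_div]
  rw [h]
  exact (norm_ntr_le _).trans (norm_ev_le _ s)

theorem Nice.approx {p p' : ℕ} {ψ : Dp p →⋆ₐ[ℂ] Dp p'} {u : DD2 p' (p' + 1)}
    (hu : u.1 ∈ unitary (C(II × II, Mat2 p' (p' + 1)))) {ε η : ℝ} {f g : Dp p}
    (h : Nice ψ u η g) (hfg : ‖f - g‖ ≤ η) (hη : 3 * η ≤ ε) : Nice ψ u ε f := by
  obtain ⟨h1, h2, h3⟩ := h
  have hd : ‖ψ f - ψ g‖ ≤ η := by
    rw [← map_sub]
    exact (norm_hom_le ψ _).trans hfg
  refine ⟨fun s s' => ?_, fun s => ?_, ?_⟩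
  · calc ‖ntr ((ψ f).1 s) - ntr ((ψ f).1 s')‖
        = ‖(ntr ((ψ f).1 s) - ntr ((ψ g).1 s)) + (ntr ((ψ g).1 s) - ntr ((ψ g).1 s')) -
          (ntr ((ψ f).1 s') - ntr ((ψ g).1 s'))‖ := by congr 1; ring
      _ ≤ ‖ψ f - ψ g‖ + η + ‖ψ f - ψ g‖ :=
        (norm_sub_le _ _).trans (add_le_add ((norm_add_le _ _).trans
          (add_le_add (norm_ntr_sub_le _ _ s) (h1 s s'))) (norm_ntr_sub_le _ _ s'))
      _ ≤ ε := by linarith
  · have h4 : ‖(ψ g).1 s‖ ≤ ‖(ψ f).1 s‖ + ‖ψ f - ψ g‖ := by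
      refine (norm_le_insert ((ψ f).1 s) ((ψ g).1 s)).trans (add_le_add le_rfl ?_)
      exact norm_ev_le (ψ f - ψ g) s
    have h5 : ‖f‖ ≤ ‖g‖ + ‖f - g‖ := by
      exact norm_le_insert' f g
    linarith [h2 s]
  · have e : u.1 * inc1 (ψ f) * star u.1 - inc2 (ψ f) =
        (u.1 * inc1 (ψ g) * star u.1 - inc2 (ψ g)) + u.1 * inc1 (ψ f - ψ g) * star u.1 -
          inc2 (ψ f - ψ g) := by
      rw [inc1_sub, inc2_sub, mul_sub, sub_mul]
      abel
    rw [e]
    have hconj : ‖u.1 * inc1 (ψ f - ψ g) * star u.1‖ = ‖inc1 (ψ f - ψ g)‖ := by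
      rw [CStarRing.norm_mul_mem_unitary _ (Unitary.star_mem hu) ,
        CStarRing.norm_mem_unitary_mul _ hu]
    refine (norm_sub_le _ _).trans ((add_le_add (norm_add_le _ _) (norm_inc2_le _)).trans ?_)
    rw [hconj]
    linarith [norm_inc1_le (ψ f - ψ g)]

/-- The chain given by the step lemma. -/
theorem exists_chain (hS : StepStmt) : Nonempty Chain := by
  refine ⟨⟨chainP hS, fun n => (stage hS n).pow, chainMap hS, fun n => (next hS n).inj,
    fun i F ε hε => ?_⟩⟩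
  have hη : (0 : ℝ) < ε / 3 := by linarith
  choose k hk using fun f => exists_near hS i f hη
  set n := i + ((F.sup k + 1) + ⌈3 / ε⌉₊) with hn
  have hin : i ≤ n := Nat.le_add_right _ _
  obtain ⟨u, hu, hgood⟩ := (next hS n).good
  refine ⟨n, hin, u, hu, fun f hf => ?_⟩
  obtain ⟨k', hk', e⟩ := tr_g hS hin (k f)
  have hlt : k' < 4 ^ n := by
    have h1 : k f + 1 ≤ 2 ^ n :=
      le_trans (by have := Finset.le_sup (f := k) hf; omega) (Nat.lt_two_pow_self (n := n)).le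
    have h2 : 2 ^ (n - i) ≤ 2 ^ n := Nat.pow_le_pow_right (by norm_num) (Nat.sub_le _ _)
    have h3 : (4 : ℕ) ^ n = 2 ^ n * 2 ^ n := by rw [← mul_pow]; norm_num
    have := Nat.mul_le_mul h1 h2
    omega
  have hm : (1 : ℝ) / (n + 1) ≤ ε / 3 := by
    have h1 : 3 / ε ≤ n := (Nat.le_ceil _).trans (by exact_mod_cast (by omega))
    rw [div_le_iff₀ (by positivity)]
    rw [div_le_iff₀ hε] at h1
    nlinarith
  have hg : Nice (chainMap hS n) u (ε / 3)
      (tr (chainP hS) (chainMap hS) i n hin ((stage hS i).g (k f))) := by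
    rw [e]
    obtain ⟨a, b, c⟩ := hgood k' hlt
    exact ⟨fun s s' => (a s s').trans hm, fun s => le_trans (by linarith) (b s), c.trans hm⟩
  refine hg.approx hu ?_ (by linarith)
  rw [← map_sub]
  exact (norm_hom_le _ _).trans (hk f).le

end

end Vale.P101.ZS.Lim
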