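import Vale.Agent.P101.ZStab.Pins

/-!
# P101: traces and full elements of dimension drop algebras

* a continuous trace of `Z(P,Q)` kills the elements with pointwise trace zero;
* an element of norm at least `c` in every fibre is full, with constants depending only on `c`.
-/

open scoped Kronecker Matrix.Norms.L2Operator

namespace Vale.P101.ZS.Lim

noncomputable section

variable {P Q : ℕ}

/-- `A ↦ A ⊗ 1`. -/
def leftHom (P Q : ℕ) : Matrix (Fin P) (Fin P) ℂ →⋆ₐ[ℂ] Mat P Q where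
  toFun A := A ⊗ₖ (1 : Matrix (Fin Q) (Fin Q) ℂ)
  map_one' := by simp
  map_mul' A B := by simp [← Matrix.mul_kronecker_mul]
  map_zero' := by simp
  map_add' A B := by simp [Matrix.add_kronecker]
  commutes' c := by simp [Algebra.algebraMap_eq_smul_one, Matrix.smul_kronecker]
  map_star' A := by simp [Matrix.star_eq_conjTranspose, Matrix.conjTranspose_kronecker]

/-- `B ↦ 1 ⊗ B`. -/
def rightHom (P Q : ℕ) : Matrix (Fin Q) (Fin Q) ℂ →⋆ₐ[ℂ] Mat P Q where
  toFun B := (1 : Matrix (Fin P) (Fin P) ℂ) ⊗ₖ B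
  map_one' := by simp
  map_mul' A B := by simp [← Matrix.mul_kronecker_mul]
  map_zero' := by simp
  map_add' A B := by simp [Matrix.kronecker_add]
  commutes' c := by simp [Algebra.algebraMap_eq_smul_one, Matrix.kronecker_smul]
  map_star' A := by simp [Matrix.star_eq_conjTranspose, Matrix.conjTranspose_kronecker]

theorem mem_DD {f : C(II, Mat P Q)} :
    f ∈ DD P Q ↔ f 0 ∈ (leftHom P Q).range ∧ f 1 ∈ (rightHom P Q).range := by
  constructor
  · rintro ⟨⟨A, hA⟩, B, hB⟩
    exact ⟨⟨A, hA.symm⟩, B, hB.symm⟩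
  · rintro ⟨⟨A, hA⟩, B, hB⟩
    exact ⟨⟨A, hA.symm⟩, B, hB.symm⟩

theorem isClosed_DD (P Q : ℕ) : IsClosed (DD P Q : Set C(II, Mat P Q)) := by
  have h : ∀ (n : Type) [Fintype n] [DecidableEq n] (ι : Matrix n n ℂ →⋆ₐ[ℂ] Mat P Q),
      IsClosed (ι.range : Set (Mat P Q)) := by
    intro n _ _ ι
    have := (LinearMap.range ι.toAlgHom.toLinearMap).closed_of_finiteDimensional
    convert this using 1
    ext x
    exact Iff.rfl
  have hs : (DD P Q : Set C(II, Mat P Q)) =
      (fun f => f 0) ⁻¹' ((leftHom P Q).range : Set _) ∩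
        (fun f => f 1) ⁻¹' ((rightHom P Q).range : Set _) := by
    ext f
    exact mem_DD
  rw [hs]
  exact ((h _ _).preimage (continuous_eval_const _)).inter
    ((h _ _).preimage (continuous_eval_const _))

instance (P Q : ℕ) : IsClosed (DD P Q : Set C(II, Mat P Q)) := isClosed_DD P Q

instance instCStarDD (P Q : ℕ) : CStarAlgebra (DD P Q) := StarSubalgebra.cstarAlgebra _

instance (P Q : ℕ) : TopologicalSpace.SeparableSpace (DD P Q) :=
  inferInstanceAs (TopologicalSpace.SeparableSpace (DD P Q : Set C(II, Mat P Q)))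

/-- Evaluation at a point. -/
def ev (s : II) : DD P Q →⋆ₐ[ℂ] Mat P Q where
  toFun f := f.1 s
  map_one' := rfl
  map_mul' _ _ := rfl
  map_zero' := rfl
  map_add' _ _ := rfl
  commutes' _ := rfl
  map_star' _ := rfl

theorem norm_ev_le (f : DD P Q) (s : II) : ‖f.1 s‖ ≤ ‖f‖ :=
  f.1.norm_coe_le_norm s

/-- The weight `h` may multiply the image of `ι`. -/
def Adm {n : Type} [Fintype n] [DecidableEq n] (h : C(II, ℝ))
    (ι : Matrix n n ℂ →⋆ₐ[ℂ] Mat P Q) : Prop :=
  (h 0 = 0 ∨ ∀ A, ι A ∈ (leftHom P Q).range) ∧ (h 1 = 0 ∨ ∀ A, ι A ∈ (rightHom P Q).range)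

/-- The function `s ↦ h s • M`. -/
def cEl (h : C(II, ℝ)) (M : Mat P Q) : C(II, Mat P Q) :=
  ⟨fun s => (h s : ℂ) • M, (Complex.continuous_ofReal.comp h.continuous).smul continuous_const⟩

theorem cEl_mem {n : Type} [Fintype n] [DecidableEq n] {h : C(II, ℝ)}
    {ι : Matrix n n ℂ →⋆ₐ[ℂ] Mat P Q} (ha : Adm h ι) (A : Matrix n n ℂ) :
    cEl h (ι A) ∈ DD P Q := by
  rw [mem_DD]
  refine ⟨?_, ?_⟩
  · change (h 0 : ℂ) • ι A ∈ _
    rcases ha.1 with h0 | h0
    · simp [h0, zero_mem]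
    · exact SMulMemClass.smul_mem _ (h0 A)
  · change (h 1 : ℂ) • ι A ∈ _
    rcases ha.2 with h0 | h0
    · simp [h0, zero_mem]
    · exact SMulMemClass.smul_mem _ (h0 A)

/-- The square root of a weight. -/
def root (h : C(II, ℝ)) : C(II, ℝ) := ⟨fun s => √(h s), by fun_prop⟩

theorem Adm.root {n : Type} [Fintype n] [DecidableEq n] {h : C(II, ℝ)}
    {ι : Matrix n n ℂ →⋆ₐ[ℂ] Mat P Q} (ha : Adm h ι) : Adm (root h) ι :=
  ⟨ha.1.imp_left fun h0 => by simp [Lim.root, h0], ha.2.imp_left fun h0 => by simp [Lim.root, h0]⟩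

/-! ### Hat functions -/

/-- The hat at the `k`-th of the nodes `j / N`. -/
def hat (N k : ℕ) : C(II, ℝ) :=
  ⟨fun s => max 0 (1 - |(N : ℝ) * (s : ℝ) - k|), by fun_prop⟩

theorem hat_nonneg (N k : ℕ) (s : II) : 0 ≤ hat N k s := le_max_left _ _

theorem sum_hat_aux (x : ℝ) (hx : 0 ≤ x) (N : ℕ) :
    ∑ k ∈ Finset.range (N + 1), max 0 (1 - |x - k|) = max 0 (min 1 ((N : ℝ) + 1 - x)) := by
  induction N with
  | zero =>
    simp only [zero_add, Finset.sum_range_one, Nat.cast_zero, sub_zero, abs_of_nonneg hx]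
    rw [min_eq_right (by linarith)]
  | succ N ih =>
    rw [Finset.sum_range_succ, ih]
    push_cast
    rcases abs_cases (x - ((N : ℝ) + 1)) with ⟨e, he⟩ | ⟨e, he⟩ <;> rw [e] <;>
      simp only [max_def, min_def] <;> split_ifs <;> linarith

theorem sum_hat {N : ℕ} (s : II) : ∑ k : Fin (N + 1), hat N k s = 1 := by
  rw [Fin.sum_univ_eq_sum_range (fun k => hat N k s)]
  have hx : 0 ≤ (N : ℝ) * (s : ℝ) := mul_nonneg N.cast_nonneg s.2.1
  refine (sum_hat_aux _ hx N).trans ?_
  have : (N : ℝ) * (s : ℝ) ≤ N := mul_le_of_le_one_right N.cast_nonneg s.2.2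
  rw [min_eq_left (by linarith), max_eq_right zero_le_one]

theorem hat_zero {N k : ℕ} (hk : k ≠ 0) : hat N k 0 = 0 := by
  have : (1 : ℝ) ≤ k := by exact_mod_cast Nat.one_le_iff_ne_zero.2 hk
  simp [hat, abs_of_nonneg, this]

theorem hat_one {N k : ℕ} (hk : k < N) : hat N k 1 = 0 := by
  have : (k : ℝ) + 1 ≤ N := by exact_mod_cast hk
  simp only [hat, ContinuousMap.coe_mk, Set.Icc.coe_one, mul_one]
  rw [abs_of_nonneg (by linarith), max_eq_left (by linarith)]

/-- The `k`-th node. -/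
def node (N : ℕ) (k : Fin (N + 1)) : II :=
  ⟨((k : ℕ) : ℝ) / N, div_nonneg (by positivity) N.cast_nonneg,
    div_le_one_of_le₀ (by exact_mod_cast Fin.is_le k) N.cast_nonneg⟩

theorem exists_grid (F : C(II, Mat P Q)) {η : ℝ} (hη : 0 < η) :
    ∃ N : ℕ, 0 < N ∧ ∀ (k : Fin (N + 1)) (s : II),
      hat N k s * ‖F s - F (node N k)‖ ≤ hat N k s * η := by
  obtain ⟨δ, hδ, hF⟩ := Metric.uniformContinuous_iff.1
    (CompactSpace.uniformContinuous_of_continuous F.continuous) η hη
  obtain ⟨N, hN⟩ := exists_nat_gt (1 / δ)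
  have hN0 : (0 : ℝ) < N := lt_trans (by positivity) hN
  refine ⟨N, by exact_mod_cast hN0, fun k s => ?_⟩
  rcases eq_or_ne (hat N k s) 0 with h | h
  · simp [h]
  refine mul_le_mul_of_nonneg_left ?_ (hat_nonneg _ _ _)
  rw [← dist_eq_norm]
  refine (hF ?_).le
  have h1 : |(N : ℝ) * (s : ℝ) - k| < 1 := by
    by_contra hc
    exact h (max_eq_left (by linarith [not_lt.1 hc]))
  rw [Subtype.dist_eq, Real.dist_eq]
  have h2 : |(N : ℝ) * (s : ℝ) - k| = N * |(s : ℝ) - ((k : ℕ) : ℝ) / N| := by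
    rw [← abs_of_pos hN0, ← abs_mul, abs_of_pos hN0, mul_sub, mul_div_cancel₀ _ hN0.ne']
  rw [one_div, inv_lt_iff_one_lt_mul₀ hδ] at hN
  simp only [node]
  nlinarith [abs_nonneg ((s : ℝ) - ((k : ℕ) : ℝ) / N)]

/-- The weighted sum of values close to `F`. -/
theorem norm_sub_sum_le (F : C(II, Mat P Q)) {N : ℕ} {η : ℝ}
    (hgrid : ∀ (k : Fin (N + 1)) (s : II),
      hat N k s * ‖F s - F (node N k)‖ ≤ hat N k s * η) (s : II) :
    ‖F s - ∑ k : Fin (N + 1), (hat N k s : ℂ) • F (node N k)‖ ≤ η := by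
  have h1 : ∑ k : Fin (N + 1), (hat N k s : ℂ) • F s = F s := by
    rw [← Finset.sum_smul, ← Complex.ofReal_sum, sum_hat, Complex.ofReal_one, one_smul]
  calc ‖F s - ∑ k : Fin (N + 1), (hat N k s : ℂ) • F (node N k)‖
      = ‖∑ k : Fin (N + 1), (hat N k s : ℂ) • (F s - F (node N k))‖ := by
        simp only [smul_sub, Finset.sum_sub_distrib, h1]
    _ ≤ ∑ k : Fin (N + 1), ‖(hat N k s : ℂ) • (F s - F (node N k))‖ := norm_sum_le _ _
    _ ≤ ∑ k : Fin (N + 1), hat N k s * η := Finset.sum_le_sum fun k _ => by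
        rw [norm_smul, Complex.norm_real, Real.norm_of_nonneg (hat_nonneg _ _ _)]
        exact hgrid k s
    _ = η := by rw [← Finset.sum_mul, sum_hat, one_mul]

/-- At each node an element lies in a matrix algebra whose multiples of the hat are in `Z(P,Q)`. -/
theorem node_cases (hP : 0 < P) (hQ : 0 < Q) (f : DD P Q) {N : ℕ} (hN : 0 < N)
    (k : Fin (N + 1)) :
    ∃ (n : Type) (_ : Fintype n) (_ : DecidableEq n) (ι : Matrix n n ℂ →⋆ₐ[ℂ] Mat P Q)
      (A : Matrix n n ℂ), ι A = f.1 (node N k) ∧ Adm (hat N k) ι ∧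
        ∃ c : ℂ, c ≠ 0 ∧ ∀ B, (ι B).trace = c * B.trace := by
  obtain ⟨⟨A, hA⟩, ⟨B, hB⟩⟩ := f.2
  rcases eq_or_ne (k : ℕ) 0 with h0 | h0
  · refine ⟨Fin P, inferInstance, inferInstance, leftHom P Q, A, ?_,
      ⟨Or.inr fun C => ⟨C, rfl⟩, Or.inl (hat_one (by omega))⟩, (Q : ℂ),
      by exact_mod_cast hQ.ne', fun C => ?_⟩
    · rw [show node N k = 0 from Subtype.ext (by simp [node, h0])]
      exact hA.symm
    · change (C ⊗ₖ (1 : Matrix (Fin Q) (Fin Q) ℂ)).trace = _
      simp [Matrix.trace_kronecker, mul_comm]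
  rcases eq_or_ne (k : ℕ) N with h1 | h1
  · refine ⟨Fin Q, inferInstance, inferInstance, rightHom P Q, B, ?_,
      ⟨Or.inl (hat_zero h0), Or.inr fun C => ⟨C, rfl⟩⟩, (P : ℂ),
      by exact_mod_cast hP.ne', fun C => ?_⟩
    · rw [show node N k = 1 from Subtype.ext (by simp [node, h1, hN.ne'])]
      exact hB.symm
    · change ((1 : Matrix (Fin P) (Fin P) ℂ) ⊗ₖ C).trace = _
      simp [Matrix.trace_kronecker]
  exact ⟨Fin P × Fin Q, inferInstance, inferInstance, StarAlgHom.id ℂ _, f.1 (node N k), rfl,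
    ⟨Or.inl (hat_zero h0), Or.inl (hat_one (by omega))⟩, 1, one_ne_zero, fun C => by simp⟩

/-! ### Traces -/

/-- A tracial functional on matrices kills trace zero. -/
theorem tracial_kills {n : Type} [Fintype n] [DecidableEq n] (l : Matrix n n ℂ →ₗ[ℂ] ℂ)
    (hl : ∀ A B, l (A * B) = l (B * A)) {A : Matrix n n ℂ} (hA : A.trace = 0) : l A = 0 := by
  rcases isEmpty_or_nonempty n with h | ⟨⟨o⟩⟩
  · simp [Subsingleton.elim A 0]
  have hd : ∀ i, l (Matrix.single i i 1) = l (Matrix.single o o 1) := fun i => by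
    have := hl (Matrix.single i o 1) (Matrix.single o i 1)
    simpa using this
  have ho : ∀ i j, i ≠ j → l (Matrix.single i j 1) = 0 := fun i j hij => by
    have := hl (Matrix.single i i 1) (Matrix.single i j 1)
    rwa [Matrix.single_mul_single_same, Matrix.single_mul_single_of_ne _ _ _ _ hij.symm, map_zero,
      mul_one] at this
  calc l A = l (∑ i, ∑ j, A i j • Matrix.single i j (1 : ℂ)) := by
        conv_lhs => rw [Matrix.matrix_eq_sum_single A]
        simp [Matrix.smul_single]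
    _ = ∑ i, A i i * l (Matrix.single o o 1) := by
        simp only [map_sum, map_smul, smul_eq_mul]
        refine Finset.sum_congr rfl fun i _ => ?_
        rw [Finset.sum_eq_single i (fun j _ hj => by simp [ho i j hj.symm]) (by simp), hd]
    _ = 0 := by rw [← Finset.sum_mul, show ∑ i, A i i = A.trace from rfl, hA, zero_mul]

/-- A continuous trace kills pointwise trace zero. -/
theorem trace_kills (hP : 0 < P) (hQ : 0 < Q) (τ : DD P Q →L[ℂ] ℂ)
    (hτ : ∀ a b, τ (a * b) = τ (b * a)) {f : DD P Q} (hf : ∀ s, (f.1 s).trace = 0) : τ f = 0 := by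
  refine norm_le_zero_iff.1 (le_of_forall_pos_le_add fun ε hε => ?_)
  obtain ⟨N, hN, hgrid⟩ := exists_grid f.1 (η := ε / (‖τ‖ + 1)) (by positivity)
  choose n i1 i2 ι A hA hadm c hc htr using node_cases hP hQ f hN
  let _ := i1
  let _ := i2
  set e : Fin (N + 1) → DD P Q := fun k => ⟨cEl (hat N k) (ι k (A k)), cEl_mem (hadm k) _⟩ with he
  have hz : ∀ k, τ (e k) = 0 := by
    intro k
    let g : Matrix (n k) (n k) ℂ → DD P Q := fun B => ⟨cEl (hat N k) (ι k B), cEl_mem (hadm k) _⟩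
    let r : Matrix (n k) (n k) ℂ → DD P Q := fun B =>
      ⟨cEl (root (hat N k)) (ι k B), cEl_mem (hadm k).root _⟩
    have hr : ∀ B C, g (B * C) = r B * r C := fun B C => by
      refine Subtype.ext (ContinuousMap.ext fun s => ?_)
      change (hat N k s : ℂ) • ι k (B * C) = (((√(hat N k s) : ℝ) : ℂ) • (ι k B : Mat P Q)) *
        (((√(hat N k s) : ℝ) : ℂ) • (ι k C : Mat P Q))
      rw [smul_mul_smul_comm, ← Complex.ofReal_mul, Real.mul_self_sqrt (hat_nonneg _ _ _), map_mul]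
    let l : Matrix (n k) (n k) ℂ →ₗ[ℂ] ℂ :=
      { toFun := fun B => τ (g B)
        map_add' := fun B C => by
          rw [← map_add]
          congr 1
          refine Subtype.ext (ContinuousMap.ext fun s => ?_)
          change (hat N k s : ℂ) • ι k (B + C) =
            (hat N k s : ℂ) • ι k B + (hat N k s : ℂ) • ι k C
          rw [map_add, smul_add]
        map_smul' := fun a B => by
          rw [RingHom.id_apply, ← map_smul]
          congr 1
          refine Subtype.ext (ContinuousMap.ext fun s => ?_)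
          change (hat N k s : ℂ) • ι k (a • B) = a • ((hat N k s : ℂ) • ι k B)
          rw [map_smul, smul_comm] }
    refine tracial_kills l (fun B C => ?_) (A := A k) ?_
    · change τ (g (B * C)) = τ (g (C * B))
      rw [hr, hr, hτ]
    · have h := (htr k (A k)).symm
      rw [hA, hf] at h
      exact (mul_eq_zero.1 h).resolve_left (hc k)
  have hd : ‖f - ∑ k, e k‖ ≤ ε / (‖τ‖ + 1) := by
    refine (ContinuousMap.norm_le _ (by positivity)).2 fun s => ?_
    have hsum : (∑ k, e k).1 s = ∑ k, (e k).1 s := map_sum (ev (P := P) (Q := Q) s) e Finset.univ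
    change ‖f.1 s - (∑ k, e k).1 s‖ ≤ _
    rw [hsum]
    refine le_of_eq_of_le ?_ (norm_sub_sum_le f.1 hgrid s)
    simp only [he, cEl, ContinuousMap.coe_mk, hA]
  have h0 : τ f = τ (f - ∑ k, e k) := by
    rw [map_sub, map_sum, Finset.sum_eq_zero (fun k _ => hz k), sub_zero]
  rw [h0, zero_add]
  refine (τ.le_opNorm _).trans ?_
  calc ‖τ‖ * ‖f - ∑ k, e k‖ ≤ ‖τ‖ * (ε / (‖τ‖ + 1)) :=
        mul_le_mul_of_nonneg_left hd (norm_nonneg _)
    _ ≤ (‖τ‖ + 1) * (ε / (‖τ‖ + 1)) := mul_le_mul_of_nonneg_right (by linarith) (by positivity)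
    _ = ε := mul_div_cancel₀ _ (by positivity)

theorem norm_entry_le {n : Type} [Fintype n] [DecidableEq n] (M : Matrix n n ℂ) (i j : n) :
    ‖M i j‖ ≤ ‖M‖ := by
  have h := (Matrix.toEuclideanCLM (𝕜 := ℂ) M).le_opNorm (EuclideanSpace.single j (1 : ℂ))
  rw [EuclideanSpace.norm_single, norm_one, mul_one, ← Matrix.cstar_norm_def] at h
  refine le_trans ?_ h
  refine le_of_eq_of_le ?_ (PiLp.norm_apply_le _ i)
  congr 1
  simp [Matrix.ofLp_toEuclideanCLM, Matrix.mulVec_single]

theorem norm_trace_le {n : Type} [Fintype n] [DecidableEq n] (M : Matrix n n ℂ) :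
    ‖M.trace‖ ≤ Fintype.card n * ‖M‖ := by
  refine (norm_sum_le _ _).trans ((Finset.sum_le_sum fun i _ =>
    norm_entry_le M i i).trans (by simp))

theorem norm_ntr_le (M : Mat P Q) : ‖ntr M‖ ≤ ‖M‖ := by
  rcases Nat.eq_zero_or_pos (P * Q) with h | h
  · simp [ntr, h]
  · rw [ntr, norm_div, Complex.norm_natCast, div_le_iff₀ (by exact_mod_cast h), mul_comm]
    simpa using norm_trace_le M

/-- The pointwise normalised trace times the unit. -/
def scal (f : DD P Q) : DD P Q :=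
  ⟨⟨fun s => ntr (f.1 s) • (1 : Mat P Q), ((f.1.continuous.matrix_trace).div_const _).smul
      continuous_const⟩,
    ⟨⟨ntr (f.1 0) • 1, show ntr (f.1 0) • (1 : Mat P Q) = _ by simp [Matrix.smul_kronecker]⟩,
      ntr (f.1 1) • 1, show ntr (f.1 1) • (1 : Mat P Q) = _ by simp [Matrix.kronecker_smul]⟩⟩

/-- A continuous trace is as close to `c` as the pointwise traces are. -/
theorem trace_close (hP : 0 < P) (hQ : 0 < Q) (τ : DD P Q →L[ℂ] ℂ)
    (hτ : ∀ a b, τ (a * b) = τ (b * a)) (h1 : τ 1 = 1) (f : DD P Q) (c : ℂ) {ε : ℝ} (hε : 0 ≤ ε)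
    (hc : ∀ s, ‖ntr (f.1 s) - c‖ ≤ ε) : ‖τ f - c‖ ≤ ‖τ‖ * ε := by
  have h0 : τ (f - scal f) = 0 := trace_kills hP hQ τ hτ fun s => by
    change (f.1 s - ntr (f.1 s) • (1 : Mat P Q)).trace = 0
    have : ((P * Q : ℕ) : ℂ) ≠ 0 := by exact_mod_cast (Nat.mul_pos hP hQ).ne'
    rw [Matrix.trace_sub, Matrix.trace_smul, Matrix.trace_one, Fintype.card_prod, Fintype.card_fin,
      Fintype.card_fin, smul_eq_mul, ntr, div_mul_cancel₀ _ this, sub_self]
  have h2 : τ f - c = τ (scal f - c • 1) := by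
    rw [map_sub] at h0 ⊢
    rw [map_smul, h1, sub_eq_zero.1 h0, smul_eq_mul, mul_one]
  rw [h2]
  refine (τ.le_opNorm _).trans (mul_le_mul_of_nonneg_left ?_ (norm_nonneg _))
  refine (ContinuousMap.norm_le _ hε).2 fun s => ?_
  change ‖ntr (f.1 s) • (1 : Mat P Q) - c • 1‖ ≤ ε
  rw [← sub_smul, norm_smul]
  calc ‖ntr (f.1 s) - c‖ * ‖(1 : Mat P Q)‖ ≤ ε * 1 := by
        refine mul_le_mul (hc s) ?_ (norm_nonneg _) hε
        rcases subsingleton_or_nontrivial (Mat P Q) with h | h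
        · simp [Subsingleton.elim (1 : Mat P Q) 0]
        · exact CStarRing.norm_one.le
    _ = ε := mul_one ε

/-! ### Full elements -/

section order

attribute [local instance] CStarAlgebra.spectralOrder CStarAlgebra.spectralOrderedRing

theorem norm_sum_conj_le {E : Type} [CStarAlgebra E] {ι : Type} [Fintype ι] (x : ι → E) (y : E) :
    ‖∑ i, star (x i) * y * x i‖ ≤ ‖∑ i, star (x i) * x i‖ * ‖y‖ := by
  have h := norm_sum_mul_le (fun i => star (x i)) (fun i => y * x i)
  simp only [star_star] at h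
  simp only [← mul_assoc] at h ⊢
  refine h.trans ?_
  have hb : ‖∑ i, star (y * x i) * (y * x i)‖ ≤ ‖y‖ ^ 2 * ‖∑ i, star (x i) * x i‖ := by
    have hle : ∑ i, star (y * x i) * (y * x i) ≤ (‖y‖ ^ 2) • ∑ i, star (x i) * x i := by
      rw [Finset.smul_sum]
      refine Finset.sum_le_sum fun i _ => ?_
      have h1 : star y * y ≤ algebraMap ℝ E (‖y‖ ^ 2) := by
        have := (IsSelfAdjoint.star_mul_self y).le_algebraMap_norm_self
        rwa [CStarRing.norm_star_mul_self, ← sq] at this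
      have h2 := star_left_conjugate_le_conjugate h1 (x i)
      simpa [star_mul, mul_assoc, Algebra.algebraMap_eq_smul_one] using h2
    refine (CStarAlgebra.norm_le_norm_of_nonneg_of_le
      (Finset.sum_nonneg fun i _ => star_mul_self_nonneg _) hle).trans ?_
    rw [norm_smul, Real.norm_of_nonneg (sq_nonneg _)]
  have hs : √‖∑ i, star (y * x i) * (y * x i)‖ ≤ ‖y‖ * √‖∑ i, star (x i) * x i‖ := by
    refine (Real.sqrt_le_sqrt hb).trans ?_
    rw [Real.sqrt_mul (sq_nonneg _), Real.sqrt_sq (norm_nonneg _)]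
  simp only [← mul_assoc] at hs
  calc √‖∑ i, star (x i) * x i‖ * √‖∑ i, star (y * x i) * y * x i‖
      ≤ √‖∑ i, star (x i) * x i‖ * (‖y‖ * √‖∑ i, star (x i) * x i‖) :=
        mul_le_mul_of_nonneg_left hs (Real.sqrt_nonneg _)
    _ = ‖∑ i, star (x i) * x i‖ * ‖y‖ := by
        rw [mul_left_comm, Real.mul_self_sqrt (norm_nonneg _), mul_comm]

end order

/-- A column family for a matrix of norm at least `c`. -/
theorem exists_cols {n : Type} [Fintype n] [DecidableEq n] (A : Matrix n n ℂ) {c : ℝ} (hc : 0 < c)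
    (hA : c ≤ ‖A‖) :
    ∃ (R : n → Matrix n n ℂ) (q : ℝ), 0 ≤ q ∧ q ≤ 4 / c ^ 2 ∧
      ∑ j, star (R j) * R j = (q : ℂ) • (1 : Matrix n n ℂ) ∧
      ∑ j, star (R j) * (star A * A) * R j = 1 := by
  rw [Matrix.cstar_norm_def] at hA
  obtain ⟨x, hx, hAx⟩ := (Matrix.toEuclideanCLM (𝕜 := ℂ) A).exists_lt_apply_of_lt_opNorm
    (r := c / 2) (lt_of_lt_of_le (by linarith) hA)
  set y := Matrix.toEuclideanCLM (𝕜 := ℂ) A x with hy
  have hy0 : 0 < ‖y‖ := lt_trans (by linarith) hAx
  set w : n → ℂ := ((‖y‖⁻¹ : ℝ) : ℂ) • x.ofLp with hw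
  have key : ∀ z : EuclideanSpace ℂ n, star z.ofLp ⬝ᵥ z.ofLp = ((‖z‖ ^ 2 : ℝ) : ℂ) := fun z => by
    have h := inner_self_eq_norm_sq_to_K (𝕜 := ℂ) z
    rw [EuclideanSpace.inner_eq_star_dotProduct, dotProduct_comm] at h
    rw [h]
    push_cast
    rfl
  have conj : ∀ (M : Matrix n n ℂ) (j : n), star (Matrix.vecMulVec w (Pi.single j 1)) * M *
      Matrix.vecMulVec w (Pi.single j 1) = (star w ⬝ᵥ M.mulVec w) • Matrix.single j j 1 := by
    intro M j
    rw [Matrix.star_eq_conjTranspose, Matrix.conjTranspose_vecMulVec, Matrix.mul_assoc,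
      Matrix.mul_vecMulVec, Matrix.vecMulVec_mul_vecMulVec]
    ext a b
    simp only [Matrix.vecMulVec_apply, Matrix.smul_apply, Matrix.single, Matrix.of_apply,
      Pi.star_apply, Pi.smul_apply, smul_eq_mul, Pi.single_apply]
    by_cases h1 : a = j <;> by_cases h2 : b = j <;> simp [h1, h2, eq_comm (a := j)]
  refine ⟨fun j => Matrix.vecMulVec w (Pi.single j 1), ‖x‖ ^ 2 / ‖y‖ ^ 2, by positivity, ?_, ?_, ?_⟩
  · rw [div_le_div_iff₀ (by positivity) (by positivity)]
    have h1 : ‖x‖ ^ 2 ≤ 1 := by nlinarith [norm_nonneg x, hx]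
    nlinarith [mul_le_mul_of_nonneg_right h1 (sq_nonneg c), hAx, norm_nonneg y]
  · have hval : star w ⬝ᵥ (1 : Matrix n n ℂ).mulVec w = ((‖x‖ ^ 2 / ‖y‖ ^ 2 : ℝ) : ℂ) := by
      rw [Matrix.one_mulVec, hw, star_smul, smul_dotProduct, dotProduct_smul, key]
      simp only [Complex.star_def, Complex.conj_ofReal, smul_eq_mul]
      push_cast
      field_simp
    calc ∑ j, star (Matrix.vecMulVec w (Pi.single j 1)) * Matrix.vecMulVec w (Pi.single j 1)
        = ∑ j, (star w ⬝ᵥ (1 : Matrix n n ℂ).mulVec w) • Matrix.single j j (1 : ℂ) :=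
          Finset.sum_congr rfl fun j _ => by simpa using conj 1 j
      _ = _ := by rw [← Finset.smul_sum, Matrix.sum_single_one, hval]
  · have hval : star w ⬝ᵥ (star A * A).mulVec w = 1 := by
      rw [← Matrix.mulVec_mulVec, Matrix.dotProduct_mulVec, Matrix.star_eq_conjTranspose,
        ← Matrix.star_mulVec, hw, Matrix.mulVec_smul, star_smul, smul_dotProduct, dotProduct_smul,
        ← Matrix.ofLp_toEuclideanCLM (𝕜 := ℂ), ← hy, key]
      simp only [Complex.star_def, Complex.conj_ofReal, smul_eq_mul]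
      have : (‖y‖ : ℂ) ≠ 0 := by exact_mod_cast hy0.ne'
      push_cast
      field_simp
    calc ∑ j, star (Matrix.vecMulVec w (Pi.single j 1)) * (star A * A) *
          Matrix.vecMulVec w (Pi.single j 1)
        = ∑ j, (star w ⬝ᵥ (star A * A).mulVec w) • Matrix.single j j (1 : ℂ) :=
          Finset.sum_congr rfl fun j _ => conj _ j
      _ = _ := by rw [← Finset.smul_sum, Matrix.sum_single_one, hval, one_smul]

/-- An element of norm at least `c` in every fibre is uniformly full. -/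
theorem exists_full (hP : 0 < P) (hQ : 0 < Q) (f : DD P Q) {c : ℝ} (hc : 0 < c)
    (hf : ∀ s, c ≤ ‖f.1 s‖) :
    ∃ (κ : Type) (_ : Fintype κ) (a : κ → DD P Q), ‖∑ i, star (a i) * a i‖ ≤ 4 / c ^ 2 ∧
      ‖1 - ∑ i, star (a i) * (star f * f) * a i‖ ≤ 1 / 4 := by
  obtain ⟨N, hN, hgrid⟩ := exists_grid (star f * f).1 (η := c ^ 2 / 16) (by positivity)
  choose n i1 i2 ι A hA hadm hdump using node_cases hP hQ f hN
  let _ := i1
  let _ := i2
  have hAn : ∀ k, c ≤ ‖A k‖ := fun k => by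
    refine (hf (node N k)).trans ?_
    rw [← hA k]
    exact NonUnitalStarAlgHom.norm_apply_le (ι k) (A k)
  choose R q hq0 hq hRR hRA using fun k => exists_cols (A k) hc (hAn k)
  let a : (Σ k, n k) → DD P Q := fun i =>
    ⟨cEl (root (hat N i.1)) (ι i.1 (R i.1 i.2)), cEl_mem (hadm i.1).root _⟩
  have conj : ∀ (i : Σ k, n k) (g : DD P Q) (s : II), (star (a i) * g * a i).1 s =
      (hat N i.1 s : ℂ) • (star (ι i.1 (R i.1 i.2)) * g.1 s * ι i.1 (R i.1 i.2)) := by
    intro i g s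
    change star (((√(hat N i.1 s) : ℝ) : ℂ) • (ι i.1 (R i.1 i.2) : Mat P Q)) * g.1 s *
      (((√(hat N i.1 s) : ℝ) : ℂ) • (ι i.1 (R i.1 i.2) : Mat P Q)) = _
    rw [star_smul, smul_mul_assoc, smul_mul_assoc, mul_smul_comm, smul_smul, Complex.star_def,
      Complex.conj_ofReal, ← Complex.ofReal_mul, Real.mul_self_sqrt (hat_nonneg _ _ _)]
  have val : ∀ (g : DD P Q) (s : II), (∑ i, star (a i) * g * a i).1 s =
      ∑ k : Fin (N + 1), (hat N k s : ℂ) • ∑ j, star (ι k (R k j)) * g.1 s * ι k (R k j) := by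
    intro g s
    change ev s (∑ i, star (a i) * g * a i) = _
    rw [map_sum, Fintype.sum_sigma]
    refine Finset.sum_congr rfl fun k _ => ?_
    rw [Finset.smul_sum]
    exact Finset.sum_congr rfl fun j _ => conj ⟨k, j⟩ g s
  have hRR' : ∀ k, ∑ j, star (ι k (R k j)) * ι k (R k j) = (q k : ℂ) • (1 : Mat P Q) := fun k => by
    simp only [← map_star, ← map_mul, ← map_sum, hRR, map_smul, map_one]
  have hone : ‖(1 : Mat P Q)‖ ≤ 1 := by
    rcases subsingleton_or_nontrivial (Mat P Q) with h | h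
    · simp [Subsingleton.elim (1 : Mat P Q) 0]
    · exact CStarRing.norm_one.le
  refine ⟨Σ k, n k, inferInstance, a, ?_, ?_⟩
  · refine (ContinuousMap.norm_le _ (by positivity)).2 fun s => ?_
    have h1 := val 1 s
    simp only [mul_one] at h1
    refine le_of_eq_of_le (congrArg norm h1) ?_
    calc ‖∑ k : Fin (N + 1), (hat N k s : ℂ) • ∑ j, star (ι k (R k j)) * (1 : DD P Q).1 s * ι k (R k j)‖
        ≤ ∑ k : Fin (N + 1), hat N k s * (4 / c ^ 2) := by
          refine (norm_sum_le _ _).trans (Finset.sum_le_sum fun k _ => ?_)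
          rw [norm_smul, Complex.norm_real, Real.norm_of_nonneg (hat_nonneg _ _ _)]
          refine mul_le_mul_of_nonneg_left ?_ (hat_nonneg _ _ _)
          have he : (1 : DD P Q).1 s = (1 : Mat P Q) := rfl
          simp only [he, mul_one, hRR', norm_smul, Complex.norm_real]
          rw [Real.norm_of_nonneg (hq0 k)]
          exact (mul_le_of_le_one_right (hq0 k) hone).trans (hq k)
      _ = 4 / c ^ 2 := by rw [← Finset.sum_mul, sum_hat, one_mul]
  · refine (ContinuousMap.norm_le _ (by positivity)).2 fun s => ?_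
    change ‖1 - (∑ i, star (a i) * (star f * f) * a i).1 s‖ ≤ _
    rw [val]
    set F := (star f * f).1 with hF
    have h1 : (1 : Mat P Q) =
        ∑ k : Fin (N + 1), (hat N k s : ℂ) • ∑ j, star (ι k (R k j)) * F (node N k) * ι k (R k j) := by
      have hk : ∀ k, ∑ j, star (ι k (R k j)) * F (node N k) * ι k (R k j) = (1 : Mat P Q) := by
        intro k
        have hv : F (node N k) = ι k (star (A k) * A k) := by
          rw [map_mul, map_star, hA]
          rfl
        simp only [hv, ← map_star, ← map_mul, ← map_sum, hRA, map_one]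
      simp only [hk, ← Finset.sum_smul, ← Complex.ofReal_sum, sum_hat, Complex.ofReal_one,
        one_smul]
    conv_lhs => rw [h1]
    calc ‖∑ k : Fin (N + 1), (hat N k s : ℂ) • ∑ j, star (ι k (R k j)) * F (node N k) * ι k (R k j) -
          ∑ k : Fin (N + 1), (hat N k s : ℂ) • ∑ j, star (ι k (R k j)) * F s * ι k (R k j)‖
        = ‖∑ k : Fin (N + 1), (hat N k s : ℂ) •
          ∑ j, star (ι k (R k j)) * (F (node N k) - F s) * ι k (R k j)‖ := by
          simp only [← Finset.sum_sub_distrib, ← smul_sub, mul_sub, sub_mul]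
      _ ≤ ∑ k : Fin (N + 1), hat N k s * (1 / 4) := by
          refine (norm_sum_le _ _).trans (Finset.sum_le_sum fun k _ => ?_)
          rw [norm_smul, Complex.norm_real, Real.norm_of_nonneg (hat_nonneg _ _ _)]
          have h2 := norm_sum_conj_le (fun j => ι k (R k j)) (F (node N k) - F s)
          rw [hRR', norm_smul, Complex.norm_real, Real.norm_of_nonneg (hq0 k)] at h2
          calc hat N k s * ‖∑ j, star (ι k (R k j)) * (F (node N k) - F s) * ι k (R k j)‖
              ≤ hat N k s * (4 / c ^ 2 * ‖F (node N k) - F s‖) := by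
                refine mul_le_mul_of_nonneg_left (h2.trans ?_) (hat_nonneg _ _ _)
                exact mul_le_mul_of_nonneg_right
                  ((mul_le_of_le_one_right (hq0 k) hone).trans (hq k)) (norm_nonneg _)
            _ = 4 / c ^ 2 * (hat N k s * ‖F s - F (node N k)‖) := by
                rw [norm_sub_rev]; ring
            _ ≤ 4 / c ^ 2 * (hat N k s * (c ^ 2 / 16)) :=
                mul_le_mul_of_nonneg_left (hgrid k s) (by positivity)
            _ = hat N k s * (1 / 4) := by field_simp; ring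
      _ = 1 / 4 := by rw [← Finset.sum_mul, sum_hat, one_mul]

end

end Vale.P101.ZS.Lim
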